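import Vale.Agent.P275.H341.Ps
import Vale.Agent.P275.H490.Defs

/-!
# Row LD: the logarithmic derivative
-/

namespace Vale.Agent.P275.H615

open scoped BigOperators Topology
open Filter Vale.Agent.P275.H341 Vale.Agent.P275.H490

theorem inv_tendsto : Tendsto (fun q : ℕ => ((q : ℂ))⁻¹) atTop (𝓝 0) :=
  tendsto_inv_atTop_nhds_zero_nat

theorem T1.lim {f : ℕ → ℂ} {N : ℕ} {a b : ℂ} (h : T1 f N a b) :
    Tendsto (fun q : ℕ => f q / (q : ℂ) ^ N) atTop (𝓝 a) := by
  have h1 : Tendsto (fun q : ℕ => (f q / (q : ℂ) ^ N - a) * q * (q : ℂ)⁻¹ + a) atTop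
      (𝓝 (b * 0 + a)) := (Tendsto.mul h inv_tendsto).add_const a
  rw [mul_zero, zero_add] at h1
  refine h1.congr' ?_
  filter_upwards [eventually_ge_atTop 1] with q hq
  have hq0 : (q : ℂ) ≠ 0 := by exact_mod_cast (by omega : q ≠ 0)
  rw [mul_assoc, mul_inv_cancel₀ hq0]
  ring

theorem T1.mul {f g : ℕ → ℂ} {N M : ℕ} {a b c d : ℂ} (h : T1 f N a b) (h' : T1 g M c d) :
    T1 (fun q => f q * g q) (N + M) (a * c) (b * c + a * d) := by
  have h1 : Tendsto (fun q : ℕ => (f q / (q : ℂ) ^ N - a) * q * (g q / (q : ℂ) ^ M) +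
      a * ((g q / (q : ℂ) ^ M - c) * q)) atTop (𝓝 (b * c + a * d)) :=
    (Tendsto.mul h (T1.lim h')).add (Tendsto.const_mul a h')
  refine h1.congr fun q => ?_
  rw [pow_add, mul_div_mul_comm]
  ring

theorem T1.add {f g : ℕ → ℂ} {N : ℕ} {a b c d : ℂ} (h : T1 f N a b) (h' : T1 g N c d) :
    T1 (fun q => f q + g q) N (a + c) (b + d) := by
  have h1 := Tendsto.add h h'
  refine h1.congr fun q => ?_
  ring

theorem T1.smul {f : ℕ → ℂ} {N : ℕ} {a b : ℂ} (c : ℂ) (h : T1 f N a b) :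
    T1 (fun q => c * f q) N (c * a) (c * b) := by
  have h1 := Tendsto.const_mul c h
  refine h1.congr fun q => ?_
  ring

theorem T1.zero (N : ℕ) : T1 (fun _ => 0) N 0 0 := by
  unfold T1
  simp

theorem T1.sum0 {ι : Type} (s : Finset ι) {f : ι → ℕ → ℂ} {N : ℕ}
    (h : ∀ i ∈ s, T1 (f i) N 0 0) : T1 (fun q => ∑ i ∈ s, f i q) N 0 0 := by
  classical
  induction s using Finset.induction_on with
  | empty => simpa using T1.zero N
  | insert i s hi ih =>
    have h1 := T1.add (h i (Finset.mem_insert_self i s))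
      (ih fun j hj => h j (Finset.mem_insert_of_mem hj))
    rw [zero_add] at h1
    simpa only [Finset.sum_insert hi] using h1

theorem T1.raise {f : ℕ → ℂ} {N N' : ℕ} {a b : ℂ} (h : T1 f N a b) (hN : N + 2 ≤ N') :
    T1 f N' 0 0 := by
  obtain ⟨k, rfl⟩ := Nat.exists_eq_add_of_le hN
  have h1 : Tendsto (fun q : ℕ => f q / (q : ℂ) ^ N * ((q : ℂ)⁻¹ ^ (k + 1))) atTop
      (𝓝 (a * 0 ^ (k + 1))) := Tendsto.mul (T1.lim h) (inv_tendsto.pow (k + 1))
  rw [zero_pow (Nat.succ_ne_zero k), mul_zero] at h1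
  refine h1.congr' ?_
  filter_upwards [eventually_ge_atTop 1] with q hq
  have hq0 : (q : ℂ) ≠ 0 := by exact_mod_cast (by omega : q ≠ 0)
  rw [sub_zero]
  rw [show N + 2 + k = N + (k + 1) + 1 by ring, pow_succ, pow_add, inv_pow]
  field_simp
  ring

theorem rowLD : RowLD := by
  intro a M b hM h0 ha K
  induction K using Nat.strong_induction_on with
  | _ K ih =>
    intro hK
    obtain ⟨n, rfl⟩ := Nat.exists_eq_add_of_le hK
    have hrec : ∀ q, ld (a q) (1 + n) = ((1 + n : ℕ) : ℂ) * a q (1 + n) +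
        (-1) * ∑ i ∈ Finset.range n, ld (a q) (i + 1) * a q (n - i) := by
      intro q
      have h1 := ld_rec (h0 q) (n + 1)
      rw [Finset.Nat.sum_antidiagonal_eq_sum_range_succ_mk, Finset.sum_range_succ,
        Finset.sum_range_succ'] at h1
      simp only [Nat.sub_self, h0 q, mul_one, ld_zero (h0 q), zero_mul, add_zero,
        Nat.add_sub_add_right] at h1
      rw [add_comm 1 n, ← h1]
      ring
    have hsum : T1 (fun q => ∑ i ∈ Finset.range n, ld (a q) (i + 1) * a q (n - i))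
        (M * ((1 + n) * (1 + n + 1))) 0 0 := by
      apply T1.sum0
      intro i hi
      rw [Finset.mem_range] at hi
      obtain ⟨j, rfl⟩ := Nat.exists_eq_add_of_lt hi
      have e1 : i + j + 1 - i = j + 1 := by omega
      rw [e1]
      have h1 := T1.mul (ih (i + 1) (by omega) (by omega)) (ha (j + 1) (by omega))
      refine T1.raise h1 ?_
      have h2 : M * ((1 + (i + j + 1)) * (1 + (i + j + 1) + 1)) =
          M * ((i + 1) * (i + 1 + 1)) + M * ((j + 1) * (j + 1 + 1)) +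
          M * (2 * ((i + 1) * (j + 1))) := by ring
      rw [h2]
      have h3 : 1 ≤ (i + 1) * (j + 1) := Nat.one_le_iff_ne_zero.mpr (by positivity)
      nlinarith
    have h1 := T1.add (T1.smul ((1 + n : ℕ) : ℂ) (ha (1 + n) hK)) (T1.smul (-1) hsum)
    rw [mul_zero, add_zero, add_zero, mul_one] at h1
    have h2 : (fun q => ld (a q) (1 + n)) = fun q => ((1 + n : ℕ) : ℂ) * a q (1 + n) +
        (-1) * ∑ i ∈ Finset.range n, ld (a q) (i + 1) * a q (n - i) := funext hrec
    rw [h2]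
    exact h1

end Vale.Agent.P275.H615
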